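import Vale.Agent.P127.Comb
import Vale.Agent.P118D.Defs

/-! # P127 SPL/Line: many degenerate tuples give many points near a line; points of a Lipschitz
graph near a line are near a chord. -/

namespace Vale.Agent.P127

open Finset
open scoped Classical

theorem spl_line {n : ℕ} {τ : Type} (T : Finset τ) (φ : τ → Fin (n + 1) → ℝ) {K ρ : ℝ}
    (hK : 1 ≤ K) (hρ : 1 ≤ ρ)
    (hL : ∀ t ∈ T, ∀ t' ∈ T, ‖φ t - φ t'‖ ≤ K * (|φ t 0 - φ t' 0| + 1))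
    (q v : Fin (n + 1) → ℝ) (h : ∀ t ∈ T, ∃ l : ℝ, ‖φ t - q - l • v‖ ≤ ρ) :
    ∃ κv : Fin (n + 1) → ℝ, ‖κv‖ ≤ 2 * K ∧
      ∀ t ∈ T, ∀ t' ∈ T, ‖φ t - φ t' - (φ t 0 - φ t' 0) • κv‖ ≤ 24 * K * ρ := by
  by_cases hex : ∀ t ∈ T, ∀ t' ∈ T, |φ t 0 - φ t' 0| ≤ 4 * ρ
  · refine ⟨0, by rw [norm_zero]; linarith, fun t ht t' ht' => ?_⟩
    rw [smul_zero, sub_zero]
    refine (hL t ht t' ht').trans ?_
    have := hex t ht t' ht'
    nlinarith
  push Not at hex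
  obtain ⟨s, hs, s', hs', hss⟩ := hex
  obtain ⟨⟨t1, t2⟩, h12, hm⟩ := exists_max_image (T ×ˢ T) (fun p => φ p.1 0 - φ p.2 0)
    ⟨(s, s'), mem_product.2 ⟨hs, hs'⟩⟩
  obtain ⟨h1, h2⟩ := mem_product.1 h12
  dsimp only at h1 h2 hm
  have hd : ∀ t ∈ T, ∀ t' ∈ T, |φ t 0 - φ t' 0| ≤ φ t1 0 - φ t2 0 := fun t ht t' ht' => by
    have a1 := hm (t, t') (mem_product.2 ⟨ht, ht'⟩)
    have a2 := hm (t', t) (mem_product.2 ⟨ht', ht⟩)
    dsimp only at a1 a2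
    exact abs_le.2 ⟨by linarith, a1⟩
  have hΔ : 4 * ρ < φ t1 0 - φ t2 0 := hss.trans_le (hd s hs s' hs')
  choose! l hl using h
  obtain ⟨e, he⟩ : ∃ e : τ → Fin (n + 1) → ℝ, ∀ t, e t = φ t - q - l t • v := ⟨_, fun _ => rfl⟩
  have he1 : ∀ t ∈ T, ∀ t' ∈ T, ‖e t - e t'‖ ≤ 2 * ρ := fun t ht t' ht' => by
    refine (norm_sub_le _ _).trans ?_
    rw [he, he]
    linarith [hl t ht, hl t' ht']
  have he2 : ∀ t t', φ t - φ t' = (l t - l t') • v + (e t - e t') := fun t t' => by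
    rw [he, he, sub_smul]
    abel
  have he3 : ∀ t ∈ T, ∀ t' ∈ T, |φ t 0 - φ t' 0 - (l t - l t') * v 0| ≤ 2 * ρ :=
    fun t ht t' ht' => by
      have a1 := congrFun (he2 t t') 0
      have a2 := (norm_le_pi_norm (e t - e t') 0).trans (he1 t ht t' ht')
      simp only [Pi.add_apply, Pi.sub_apply, Pi.smul_apply, smul_eq_mul, Real.norm_eq_abs] at a1 a2
      rw [a1, add_sub_cancel_left]
      exact a2
  generalize hΔe : φ t1 0 - φ t2 0 = Δ at hd hΔ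
  have hΔ0 : 0 < Δ := by linarith
  have hμ : Δ / 2 ≤ |l t1 - l t2| * |v 0| := by
    have a1 := abs_le.1 (he3 t1 h1 t2 h2)
    rw [hΔe] at a1
    rw [← abs_mul]
    linarith [le_abs_self ((l t1 - l t2) * v 0)]
  have hv : 0 < |v 0| := by
    rcases (abs_nonneg (v 0)).eq_or_lt with a | a
    · rw [← a] at hμ
      linarith
    · exact a
  have hμ0 : 0 < |l t1 - l t2| := by
    rcases (abs_nonneg (l t1 - l t2)).eq_or_lt with a | a
    · rw [← a] at hμ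
      linarith
    · exact a
  have hκ : ‖Δ⁻¹ • (φ t1 - φ t2)‖ ≤ 2 * K := by
    have a1 := hL t1 h1 t2 h2
    rw [hΔe, abs_of_pos hΔ0] at a1
    rw [norm_smul, Real.norm_of_nonneg (inv_nonneg.2 hΔ0.le), inv_mul_le_iff₀ hΔ0]
    nlinarith
  refine ⟨_, hκ, fun t ht t' ht' => ?_⟩
  have hν : |l t - l t'| ≤ 3 * |l t1 - l t2| := by
    have a1 := abs_le.1 (he3 t ht t' ht')
    have a2 := abs_le.1 (hd t ht t' ht')
    have a3 : |(l t - l t') * v 0| ≤ 3 * (Δ / 2) := abs_le.2 ⟨by linarith, by linarith⟩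
    rw [abs_mul] at a3
    exact le_of_mul_le_mul_right (by linarith) hv
  obtain ⟨θ, hθ⟩ : ∃ θ, θ = (l t - l t') / (l t1 - l t2) := ⟨_, rfl⟩
  have hθ1 : |θ| ≤ 3 := by rwa [hθ, abs_div, div_le_iff₀ hμ0]
  have hθ2 : l t - l t' = θ * (l t1 - l t2) := by
    rw [hθ, div_mul_cancel₀ _ (abs_pos.1 hμ0)]
  obtain ⟨E, hE⟩ : ∃ E, E = e t - e t' - θ • (e t1 - e t2) := ⟨_, rfl⟩
  have hE1 : ‖E‖ ≤ 8 * ρ := by
    rw [hE]
    refine (norm_sub_le _ _).trans ?_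
    rw [norm_smul, Real.norm_eq_abs]
    have a1 := mul_le_mul hθ1 (he1 t1 h1 t2 h2) (norm_nonneg _) (by norm_num)
    linarith [he1 t ht t' ht']
  have hI : φ t - φ t' = θ • (φ t1 - φ t2) + E := by
    rw [he2 t t', he2 t1 t2, hE, hθ2, smul_add, mul_smul]
    abel
  have hI0 : φ t 0 - φ t' 0 = θ * Δ + E 0 := by
    have a1 := congrFun hI 0
    simp only [Pi.add_apply, Pi.sub_apply, Pi.smul_apply, smul_eq_mul] at a1
    rw [a1, hΔe]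
  have hI1 : φ t - φ t' - (φ t 0 - φ t' 0) • (Δ⁻¹ • (φ t1 - φ t2)) =
      E - E 0 • (Δ⁻¹ • (φ t1 - φ t2)) := by
    rw [hI0, hI, add_smul, smul_smul (θ * Δ), mul_inv_cancel_right₀ hΔ0.ne']
    abel
  rw [hI1]
  refine (norm_sub_le _ _).trans ?_
  rw [norm_smul]
  have a1 := mul_le_mul ((norm_le_pi_norm E 0).trans hE1) hκ (norm_nonneg _) (by linarith)
  nlinarith

theorem spl_fib {Ω β : Type} (E : Finset Ω) (f : Ω → β) (B : Finset β) {M : ℝ} (hM : 0 ≤ M)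
    (hB : ∀ ω ∈ E, f ω ∈ B)
    (h : ∀ ω ∈ E, ∀ F ⊆ E, (∀ ω' ∈ F, f ω' = f ω) → (F.card : ℝ) ≤ M) :
    (E.card : ℝ) ≤ B.card * M := by
  refine (card_le_fib E f fun ω hω => h ω hω _ (filter_subset _ _)
    fun _ h => (mem_filter.1 h).2).trans (mul_le_mul_of_nonneg_right ?_ hM)
  exact Nat.cast_le.2 (card_le_card (image_subset_iff.2 hB))

theorem spl_half {m : ℕ} (A : Finset (Fin m → ℤ)) {ρ M : ℝ} (hM : 0 ≤ M)
    (h : ∀ q v : Fin m → ℝ,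
      ((A.filter fun a => ∃ l : ℝ, ∀ j, |(a j : ℝ) - q j - l * v j| ≤ ρ).card : ℝ) ≤ M)
    (i i' : Fin 2) (hi : ∀ k, k = i ∨ k = i')
    (D : Finset ((Fin 2 → Fin m → ℤ) × (Fin 2 → Fin m → ℤ)))
    (hD : ∀ w ∈ D, (∀ k, w.1 k ∈ A) ∧ (∀ k, w.2 k ∈ A) ∧ ∃ l : ℝ, ∀ j,
      |(w.1 i j : ℝ) - w.2 i j - l * ((w.1 i' j : ℝ) - w.2 i' j)| ≤ ρ) :
    (D.card : ℝ) ≤ (A.card : ℝ) ^ 3 * M := by
  refine (spl_fib D (fun w => (w.2 i, w.1 i', w.2 i')) (A ×ˢ A ×ˢ A) hM (fun w hw => ?_)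
    fun w _ F hF hf => ?_).trans_eq ?_
  · obtain ⟨b1, b2, -⟩ := hD w hw
    exact mem_product.2 ⟨b2 i, mem_product.2 ⟨b1 i', b2 i'⟩⟩
  · refine le_trans (Nat.cast_le.2 ?_) (h (fun j => w.2 i j) fun j => (w.1 i' j : ℝ) - w.2 i' j)
    refine card_le_card_of_injOn (fun u => u.1 i) (fun u hu => ?_) fun u hu u' hu' e => ?_
    · have a2 := hf u hu
      obtain ⟨b1, -, l, b3⟩ := hD u (hF hu)
      simp only [Prod.mk.injEq] at a2
      refine mem_coe.2 (mem_filter.2 ⟨b1 i, l, fun j => ?_⟩)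
      rw [← a2.1, ← a2.2.1, ← a2.2.2]
      exact b3 j
    · have a3 := (hf u hu).trans (hf u' hu').symm
      simp only [Prod.mk.injEq] at a3
      refine Prod.ext (funext fun k => ?_) (funext fun k => ?_)
      · rcases hi k with rfl | rfl
        · exact e
        · exact a3.2.1
      · rcases hi k with rfl | rfl
        · exact a3.1
        · exact a3.2.2
  · rw [card_product, card_product]
    push_cast
    ring

theorem spl_unit {a x y ρ b : ℝ} (ha : |a| = 1) (h : |a * x + b * y| ≤ ρ) :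
    |x - (-(b / a)) * y| ≤ ρ := by
  have h0 : a ≠ 0 := fun e => by simp [e] at ha
  have e : a * x + b * y = a * (x - (-(b / a)) * y) := by field_simp; ring
  rwa [e, abs_mul, ha, one_mul] at h

theorem spl_deg {m : ℕ} (A : Finset (Fin m → ℤ)) {ρ M : ℝ} (hM : 0 ≤ M)
    (h : ∀ q v : Fin m → ℝ,
      ((A.filter fun a => ∃ l : ℝ, ∀ j, |(a j : ℝ) - q j - l * v j| ≤ ρ).card : ℝ) ≤ M) :
    ((((Fintype.piFinset fun _ : Fin 2 => A) ×ˢ (Fintype.piFinset fun _ : Fin 2 => A)).filter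
      fun v => P118.D.Deg ρ (v.1 - v.2)).card : ℝ) ≤ 2 * ((A.card : ℝ) ^ 3 * M) := by
  generalize hD : (((Fintype.piFinset fun _ : Fin 2 => A) ×ˢ
    (Fintype.piFinset fun _ : Fin 2 => A)).filter fun v => P118.D.Deg ρ (v.1 - v.2)) = D
  have hm : ∀ w ∈ D, (∀ k, w.1 k ∈ A) ∧ (∀ k, w.2 k ∈ A) ∧ P118.D.Deg ρ (w.1 - w.2) := by
    intro w hw
    rw [← hD, mem_filter, mem_product, Fintype.mem_piFinset, Fintype.mem_piFinset] at hw
    exact ⟨hw.1.1, hw.1.2, hw.2⟩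
  have h0 := spl_half A hM h 0 1 (by decide) (D.filter fun w => ∃ l : ℝ, ∀ j,
    |(w.1 0 j : ℝ) - w.2 0 j - l * ((w.1 1 j : ℝ) - w.2 1 j)| ≤ ρ) fun w hw =>
      ⟨(hm w (mem_filter.1 hw).1).1, (hm w (mem_filter.1 hw).1).2.1, (mem_filter.1 hw).2⟩
  have h1 := spl_half A hM h 1 0 (by decide) (D.filter fun w => ¬ ∃ l : ℝ, ∀ j,
    |(w.1 0 j : ℝ) - w.2 0 j - l * ((w.1 1 j : ℝ) - w.2 1 j)| ≤ ρ) fun w hw => by
      obtain ⟨b1, b2, a, ha, b3⟩ := hm w (mem_filter.1 hw).1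
      refine ⟨b1, b2, ?_⟩
      simp only [Fin.sum_univ_two, Pi.sub_apply, Int.cast_sub] at b3
      obtain ⟨k, hk⟩ : ∃ k, |a k| = 1 := by
        obtain ⟨k, -, hk⟩ := exists_mem_eq_sup (univ : Finset (Fin 2)) univ_nonempty
          fun k => ‖a k‖₊
        refine ⟨k, ?_⟩
        rw [← ha, Pi.norm_def, hk]
        rfl
      rcases (by decide : ∀ k : Fin 2, k = 0 ∨ k = 1) k with rfl | rfl
      · exact absurd ⟨_, fun j => spl_unit hk (b3 j)⟩ (mem_filter.1 hw).2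
      · exact ⟨_, fun j => spl_unit hk (add_comm (_ : ℝ) _ ▸ b3 j)⟩
  have h2 := card_filter_add_card_filter_not (s := D) fun w => ∃ l : ℝ, ∀ j,
    |(w.1 0 j : ℝ) - w.2 0 j - l * ((w.1 1 j : ℝ) - w.2 1 j)| ≤ ρ
  rw [← h2]
  push_cast
  linarith

end Vale.Agent.P127
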