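import Vale.Agent.P127.Dec
import Vale.Agent.P127.SPL.Line

/-! # P127 SPL/Hyp: the hypotheses of the sum-product theorem for the rounded data. -/

namespace Vale.Agent.P127

open Finset
open scoped Classical

/-- coordinatewise floor of `R • v` -/
noncomputable def splF {m : ℕ} (R : ℝ) (v : Fin m → ℝ) : Fin m → ℤ := fun j => ⌊R * v j⌋

/-- ball bound for the first coordinate -/
def SplB {n : ℕ} {τ : Type} (T : Finset τ) (φ : τ → Fin (n + 1) → ℝ) (K : ℝ) : Prop :=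
  ∀ a r : ℝ, 1 ≤ r → ∀ F ⊆ T, (∀ t ∈ F, |φ t 0 - a| ≤ r) → (F.card : ℝ) ≤ K * r

theorem spl_fl (x : ℝ) : |(⌊x⌋ : ℝ) - x| ≤ 1 := by
  have h1 := Int.floor_le x
  have h2 := Int.lt_floor_add_one x
  exact abs_le.2 ⟨by linarith, by linarith⟩

theorem splF_le {m : ℕ} (R : ℝ) (v : Fin m → ℝ) (j : Fin m) :
    |(splF R v j : ℝ) - R * v j| ≤ 1 := spl_fl _

theorem splF_one {m : ℕ} (v : Fin m → ℝ) (j : Fin m) : |(splF 1 v j : ℝ) - v j| ≤ 1 := by
  simpa using splF_le 1 v j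

theorem splF_abs {m : ℕ} {R B : ℝ} (hR : 0 ≤ R) {v : Fin m → ℝ} (h : ‖v‖ ≤ B) (j : Fin m) :
    |(splF R v j : ℝ)| ≤ R * B + 1 := by
  have h1 := abs_le.1 (splF_le R v j)
  have h2 : |R * v j| ≤ R * B := by
    rw [abs_mul, abs_of_nonneg hR]
    exact mul_le_mul_of_nonneg_left ((norm_le_pi_norm v j).trans h) hR
  have h3 := abs_le.1 h2
  exact abs_le.2 ⟨by linarith, by linarith⟩

theorem splF_eq {m : ℕ} {R : ℝ} (hR : 1 ≤ R) {v w : Fin m → ℝ} (h : splF R v = splF R w)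
    (j : Fin m) : |v j - w j| ≤ 1 := by
  have h1 := Int.abs_sub_lt_one_of_floor_eq_floor (congrFun h j)
  rw [← mul_sub, abs_mul, abs_of_pos (by linarith : 0 < R)] at h1
  nlinarith [abs_nonneg (v j - w j)]

theorem spl_img {Ω β γ : Type} [DecidableEq β] [DecidableEq γ] (E : Finset Ω) (f : Ω → β)
    (g : Ω → γ) {M : ℝ}
    (h : ∀ ω ∈ E, ∀ F ⊆ E, (∀ ω' ∈ F, f ω' = f ω) → ((F.image g).card : ℝ) ≤ M) :
    ((E.image g).card : ℝ) ≤ (E.image f).card * M := by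
  simpa only [image_cd, filter_cd] using image_le_mul E f g (M := M) fun ω hω => by
    simpa only [image_cd, filter_cd] using h ω hω (E.filter fun ω' => f ω' = f ω)
      (filter_subset _ _) fun _ h => (mem_filter.1 h).2

variable {n : ℕ} {τ : Type} {T : Finset τ} {φ : τ → Fin (n + 1) → ℝ} {K : ℝ}

theorem spl_ball (h1 : SplB T φ K) {r : ℝ} (hr : 1 ≤ r) (p : Fin (n + 1) → ℝ) :
    (((T.image fun t => splF 1 (φ t)).filter fun a => ∀ j, |(a j : ℝ) - p j| ≤ r).card : ℝ) ≤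
      K * (2 * r) := by
  rw [filter_image]
  refine (Nat.cast_le.2 card_image_le).trans (h1 (p 0) _ (by linarith) _ (filter_subset _ _)
    fun t ht => ?_)
  have a1 := abs_le.1 ((mem_filter.1 ht).2 0)
  have a2 := abs_le.1 (splF_one (φ t) 0)
  exact abs_le.2 ⟨by linarith, by linarith⟩

theorem spl_cov (hK : 1 ≤ K) {B : ℝ}
    (hL : ∀ t ∈ T, ∀ t' ∈ T, ‖φ t - φ t'‖ ≤ K * (|φ t 0 - φ t' 0| + 1))
    (hB : ∀ t ∈ T, ‖φ t‖ ≤ B) {r : ℝ} (hr : 1 ≤ r) (hrB : r ≤ B) :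
    ∃ F : Finset (Fin (n + 1) → ℝ), (F.card : ℝ) ≤ 4 * (6 * K + 2) ^ (n + 1) * (B / r) ∧
      ∀ a ∈ T.image fun t => splF 1 (φ t), ∃ p ∈ F, ∀ j, |(a j : ℝ) - p j| ≤ r := by
  have hr0 : 0 < r := by linarith
  refine ⟨(T.image fun t => cell r fun j => (splF 1 (φ t) j : ℝ)).image
    fun c j => r * (c j : ℝ), (Nat.cast_le.2 card_image_le).trans ?_, fun a ha => ?_⟩
  · refine (spl_img T (fun t => cz r (φ t 0)) _ (M := (6 * K + 2) ^ (n + 1))
      fun t ht F hF hf => ?_).trans ?_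
    · have a1 := cover F (fun t j => (splF 1 (φ t) j : ℝ)) (φ t) hr0
        (show 0 ≤ 3 * K * r by positivity) fun s hs => by
          rw [pi_norm_le_iff_of_nonneg (by positivity)]
          intro j
          have b1 := abs_le.1 (splF_one (φ s) j)
          have b2 := (norm_le_pi_norm (φ s - φ t) j).trans (hL s (hF hs) t ht)
          have b3 := cz_close hr0 (hf s hs)
          have b4 : K * (|φ s 0 - φ t 0| + 1) ≤ K * (2 * r) :=
            mul_le_mul_of_nonneg_left (by linarith) (by linarith)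
          have b5 : 1 ≤ K * r := by nlinarith
          rw [Pi.sub_apply, Real.norm_eq_abs, abs_le] at b2 ⊢
          constructor <;> linarith [b2.1, b2.2]
      rw [Fintype.card_fin, show 2 * (3 * K * r) / r = 6 * K by field_simp; ring] at a1
      exact a1
    · have a1 := cover_z T (fun t => φ t 0) 0 hr0 (show 0 ≤ B by linarith) fun t ht => by
        rw [sub_zero]
        exact (norm_le_pi_norm (φ t) 0).trans (hB t ht)
      have a2 : 1 ≤ B / r := (one_le_div hr0).2 hrB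
      rw [mul_div_assoc] at a1
      calc _ ≤ (4 * (B / r)) * (6 * K + 2) ^ (n + 1) :=
            mul_le_mul_of_nonneg_right (by linarith) (by positivity)
        _ = _ := by ring
  · obtain ⟨t, ht, rfl⟩ := mem_image.1 ha
    refine ⟨_, mem_image_of_mem _ (mem_image_of_mem _ ht), fun j => ?_⟩
    exact (norm_le_pi_norm _ j).trans (cell_corner hr0 fun j => (splF 1 (φ t) j : ℝ))

theorem spl_G (h1 : SplB T φ K) (hK : 0 ≤ K) {R : ℝ} (hR : 1 ≤ R) {G : Finset (τ × τ)}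
    (hG : G ⊆ T ×ˢ T) :
    (G.card : ℝ) ≤ (G.image fun p => (splF 1 (φ p.1), splF R (φ p.2))).card * (K * K) := by
  refine spl_fib G _ _ (by positivity) (fun p hp => mem_image_of_mem _ hp) fun p _ F hF hf => ?_
  have a1 : F ⊆ (T.filter fun t => |φ t 0 - φ p.1 0| ≤ 1) ×ˢ
      (T.filter fun t => |φ t 0 - φ p.2 0| ≤ 1) := fun u hu => by
    obtain ⟨b1, b2⟩ := mem_product.1 (hG (hF hu))
    obtain ⟨b3, b4⟩ := Prod.mk.inj (hf u hu)
    exact mem_product.2 ⟨mem_filter.2 ⟨b1, splF_eq le_rfl b3 0⟩, mem_filter.2 ⟨b2, splF_eq hR b4 0⟩⟩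
  refine (Nat.cast_le.2 (card_le_card a1)).trans ?_
  rw [card_product, Nat.cast_mul]
  have a2 := fun a => h1 a 1 le_rfl (T.filter fun t => |φ t 0 - a| ≤ 1) (filter_subset _ _)
    fun _ h => (mem_filter.1 h).2
  simp only [mul_one] at a2
  exact mul_le_mul (a2 _) (a2 _) (Nat.cast_nonneg _) hK

theorem spl_S {Ω : Type} {m : ℕ} (G : Finset Ω) (w : Ω → Fin m → ℝ) (Sx : Finset (Fin m → ℝ))
    {ρ : ℝ} (hρ : 0 ≤ ρ) (h : ∀ p ∈ G, ∃ s ∈ Sx, ‖w p - s‖ ≤ ρ) :
    ((G.image fun p => cell 1 (w p)).card : ℝ) ≤ Sx.card * (2 * ρ + 2) ^ m := by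
  choose! s hs hs' using h
  refine (spl_img G s _ (M := (2 * ρ + 2) ^ m) fun p _ F hF hf => ?_).trans
    (mul_le_mul_of_nonneg_right (Nat.cast_le.2 (card_le_card (image_subset_iff.2 hs)))
      (by positivity))
  have a1 := cover F w (s p) one_pos hρ fun u hu => hf u hu ▸ hs' u (hF hu)
  rw [Fintype.card_fin, div_one] at a1
  exact a1

theorem spl_err {m : ℕ} {R lam x z : ℝ} (hR : 0 < R) (hl : 0 < lam) (hz : |z| ≤ R * lam)
    (hx : |z - x * lam| ≤ 1) (v : Fin m → ℝ) {v' : Fin m → ℝ} (hv : ‖v'‖ ≤ lam) :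
    ‖(fun j => (splF 1 v j : ℝ) + z / (R * lam) * splF R v' j) - (v + x • v')‖ ≤ 3 := by
  rw [pi_norm_le_iff_of_nonneg (by norm_num)]
  intro j
  have a1 := abs_le.1 (splF_one v j)
  have a2 : |z / (R * lam) * ((splF R v' j : ℝ) - R * v' j)| ≤ 1 := by
    rw [abs_mul, abs_div, abs_of_pos (mul_pos hR hl)]
    exact mul_le_one₀ ((div_le_one (mul_pos hR hl)).2 hz) (abs_nonneg _) (splF_le R v' j)
  have a3 : |(z - x * lam) * (v' j / lam)| ≤ 1 := by
    rw [abs_mul, abs_div, abs_of_pos hl]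
    exact mul_le_one₀ hx (by positivity) ((div_le_one hl).2 ((norm_le_pi_norm v' j).trans hv))
  have a4 : z / (R * lam) * (splF R v' j : ℝ) - x * v' j =
      z / (R * lam) * ((splF R v' j : ℝ) - R * v' j) + (z - x * lam) * (v' j / lam) := by
    field_simp
    ring
  rw [abs_le] at a2 a3
  simp only [Pi.sub_apply, Pi.add_apply, Pi.smul_apply, smul_eq_mul, Real.norm_eq_abs, abs_le]
  constructor <;> linarith [a2.1, a2.2, a3.1, a3.2]

theorem spl_inj {X : Finset ℝ} {a lam : ℝ} (ha : 0 < a) (hl : a ≤ lam)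
    (h : ∀ x ∈ X, ∀ x' ∈ X, x ≠ x' → 1 / a ≤ |x - x'|) :
    Set.InjOn (fun x : ℝ => ⌊x * lam⌋) X := by
  intro x hx x' hx' e
  by_contra hne
  have a1 := h x hx x' hx' hne
  have a2 := Int.abs_sub_lt_one_of_floor_eq_floor e
  rw [← sub_mul, abs_mul, abs_of_pos (ha.trans_le hl)] at a2
  rw [div_le_iff₀ ha] at a1
  nlinarith [abs_nonneg (x - x')]

theorem spl_Z {X : Finset ℝ} {N lam : ℝ} (hN : 0 < N) (hl : 2 * N ≤ lam) {r : ℝ} (hr : 1 ≤ r)
    (z0 : ℝ) : ((X.image fun x : ℝ => ⌊x * lam⌋).filter fun z : ℤ => |(z : ℝ) - z0| ≤ r).card ≤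
      (X.filter fun x => |x - z0 / lam| ≤ r / N).card := by
  rw [filter_image]
  refine card_image_le.trans (card_le_card (monotone_filter_right _ fun x _ hx => ?_))
  have hl0 : 0 < lam := by linarith
  have a1 := abs_le.1 (spl_fl (x * lam))
  have a2 := abs_le.1 hx
  have a3 : |x * lam - z0| ≤ 2 * r := abs_le.2 ⟨by linarith, by linarith⟩
  rw [show x - z0 / lam = (x * lam - z0) / lam by field_simp, abs_div, abs_of_pos hl0,
    div_le_div_iff₀ hl0 hN]
  nlinarith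

end Vale.Agent.P127
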